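import Vale.Agent.P281Z.Lg.Mk

/-!
# P281Z, block LG: the complex Hessian of a pull back
-/

open scoped Manifold ContDiff Topology ComplexOrder
open Filter Set Function
open Vale.Agent.P272.K Vale.Agent.P285.H281.FD Vale.Agent.P281Z.Ha Vale.Agent.P284.H608.K
open Vale.Agent.P277Z (at_chart)
open Vale.Agent.P299.H956 (jmR cHess_compR)

noncomputable section

namespace Vale.Agent.P281Z.Lg

section

variable {m n : ℕ} {Y X : Type} [TopologicalSpace Y] [ChartedSpace (Cm m) Y] [TopologicalSpace X]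
  [ChartedSpace (Cm n) X] [IsManifold 𝓘(ℂ, Cm m) ω Y] [IsManifold 𝓘(ℂ, Cm n) ω X] {p : Y → X}
  {y : Y} {c : Chart m Y} {e : Chart n X} {f : X → ℝ}

theorem sm_pull {k : ℕ∞} (hp : HolA m n p y) (hc : At c y) (he : At e (p y))
    (hf : ContDiffAt ℝ k (fun z => f (e.symm z)) (e (p y))) :
    ContDiffAt ℝ k (fun z => f (p (c.symm z))) (c y) :=
  (ContDiffAt.comp (c y) (g := fun z => f (e.symm z)) (by rwa [hc.left_inv])
    ((hp.an hc he).contDiffAt.restrict_scalars ℝ)).congr_of_eventuallyEq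
    ((at_map hp.cont hc he).mono fun _ h => congrArg f h.left_inv.symm)

theorem hess_pull (hp : HolA m n p y) (hc : At c y) (he : At e (p y))
    (hf : ContDiffAt ℝ ∞ (fun z => f (e.symm z)) (e (p y))) {φ : Cm m → ℝ}
    (hφ : ∀ y' ∈ c.source, φ (c y') = f (p y')) :
    cHess φ (c y) = (jmR (fun z => e (p (c.symm z))) (c y)).transpose *
      cHess (fun z => f (e.symm z)) (e (p y)) *
        (jmR (fun z => e (p (c.symm z))) (c y)).map (starRingEnd ℂ) := by
  have h := cHess_compR (f := fun z => f (e.symm z)) (τ := fun z => e (p (c.symm z))) (z := c y)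
    (by rw [hc.left_inv]; exact hf.of_le (by norm_cast)) (hp.an hc he).contDiffAt
  rw [hc.left_inv] at h
  refine (cHess_congr ?_).trans h
  filter_upwards [at_map hp.cont hc he, hc.nhds_target] with z k1 k2
  rw [k1.left_inv, ← hφ _ (c.map_target k2), c.right_inv k2]

end

theorem psd_pb {m n : ℕ} (J : Matrix (Fin n) (Fin m) ℂ) {H : Matrix (Fin n) (Fin n) ℂ}
    (h : H.PosSemidef) : (J.transpose * H * J.map (starRingEnd ℂ)).PosSemidef := by
  have := h.conjTranspose_mul_mul_same (J.map (starRingEnd ℂ))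
  rwa [show (J.map (starRingEnd ℂ)).conjTranspose = J.transpose by ext; simp] at this

variable {m n : ℕ} {Y : Mf m} {V : Mf n} {F : Bd V.X} {ψ : F.ι → V.X → ℝ} {K : KA m Y.X}
  {p : Y.X → V.X} {fr : K.I → F.ι}

theorem psd_of' (hK : ∀ c, K.e c ∈ atlas (Cm m) Y.X) (hp : HolM m n p)
    (hU : ∀ c, ∀ y ∈ (K.e c).source, p y ∈ F.U (fr c))
    (hφ : ∀ c, ∀ y ∈ (K.e c).source, K.φ c (K.e c y) = ψ (fr c) (p y))
    (hψ : ∀ c, ∀ y ∈ (K.e c).source, ∀ e : Chart n V.X, At e (p y) →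
      ContDiffAt ℝ ∞ (fun z => ψ (fr c) (e.symm z)) (e (p y))) (h : Spos ψ) : Psd K := by
  intro c z hz
  have hy := (K.e c).map_target hz
  rw [← (K.e c).right_inv hz,
    hess_pull (hp.at _) ⟨hK c, hy⟩ (at_chart _) (hψ c _ hy _ (at_chart _)) (hφ c)]
  exact psd_pb _ (h _ _ _ (at_chart _) (hU c _ hy))

/-- the pull back of a semipositive metric is semipositive -/
theorem psd_of (hK : ∀ c, K.e c ∈ atlas (Cm m) Y.X) (hp : HolM m n p)
    (hU : ∀ c, ∀ y ∈ (K.e c).source, p y ∈ F.U (fr c))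
    (hφ : ∀ c, ∀ y ∈ (K.e c).source, K.φ c (K.e c y) = ψ (fr c) (p y)) (hψ : IsMet n F ψ)
    (h : Spos ψ) : Psd K :=
  psd_of' hK hp hU hφ (fun c y hy e he => hψ.smooth _ e _ he (hU c y hy)) h

end Vale.Agent.P281Z.Lg
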