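import Vale.Agent.P281Z.Lg.Mk

/-!
# P281Z, block LG: adjunction for a smooth hypersurface
-/

open scoped Manifold ContDiff Topology
open Set Filter Function Matrix
open Vale.Agent.P272.K Vale.Agent.P285.H281.FD
open Vale.Agent.P277Z (Hol at_chart)
open Vale.Agent.P277Z.Slc (Ind dd)
open Vale.Agent.P277.HD (pull)

set_option linter.unusedSectionVars false

noncomputable section

namespace Vale.Agent.P281Z.Lg

namespace AdjH

variable {n d : ℕ} {X F : Type} [TopologicalSpace X] [ChartedSpace (Cm n) X]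
  [IsManifold 𝓘(ℂ, Cm n) ω X] [TopologicalSpace F] [ChartedSpace (Cm d) F]
  [IsManifold 𝓘(ℂ, Cm d) ω F] {u u' g : X → ℂ} {i : F → X} {x : X} {y : F} {e : Chart n X}
  {c : Chart d F}

/-- a function as a map to the line -/
def vec (u : X → ℂ) (x : X) : Cm 1 := fun _ => u x

/-- the chart of the line -/
def r1 : Chart 1 (Cm 1) := chartAt (Cm 1) (0 : Cm 1)

theorem at_r1 (z : Cm 1) : At r1 z := at_chart z

theorem holA_vec (h : Hol n u x) : HolA n 1 (vec u) x :=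
  .of_hol (continuousAt_pi.2 fun _ => h.cont) (at_r1 _) fun _ => h

theorem sbm_vec (h : Ind n (fun _ : Unit => u) x) : Sbm n 1 (vec u) x :=
  (sbm_iff_ind (holA_vec (h.1 ())) (at_r1 _)).2 ⟨fun _ => h.1 (), fun e he =>
    (h.2 e he).comp (fun _ : Fin 1 => ()) fun _ _ _ => Subsingleton.elim _ _⟩

theorem dfM_vec (hg : Hol n g x) (hu : Hol n u' x) (h0 : u' x = 0)
    (h : ∀ᶠ z in 𝓝 x, u z = g z * u' z) (he : At e x) :
    dfM (vec u) e r1 x = (g x • (1 : Matrix (Fin 1) (Fin 1) ℂ)) * dfM (vec u') e r1 x := by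
  have k : Hol n u x := (hg.mul hu).congr (h.mono fun _ => Eq.symm)
  ext a b
  rw [smul_mul, Matrix.one_mul, Matrix.smul_apply, dfM_apply, dfM_apply,
    df_apply (holA_vec k) he (at_r1 _), df_apply (holA_vec hu) he (at_r1 _)]
  show dd u e x _ = g x • dd u' e x _
  rw [P277Z.Slc.dd_congr h he, P277Z.Slc.dd_mul hg hu h0 he]
  rfl

theorem chgA (σ : Fin 1 ⊕ Fin d ≃ Fin n) (h : FibA n 1 d (vec u) i y) (h' : FibA n 1 d (vec u') i y)
    (hg : Hol n g (i y)) (hu : Hol n u' (i y)) (h0 : u' (i y) = 0)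
    (k : ∀ᶠ z in 𝓝 (i y), u z = g z * u' z) (hc : At c y) (he : At e (i y)) :
    th σ (vec u) i r1 c e y * g (i y) = th σ (vec u') i r1 c e y := by
  obtain ⟨R, -, h2⟩ := h.linv hc he
  have h3 := h.spec σ hc he (at_r1 _) (R y)
  have h4 := h'.spec σ hc he (at_r1 _) (R y)
  rw [h2.self_of_nhds, det_one] at h3 h4
  rw [dfM_vec hg hu h0 k he, detR_left, det_smul, det_one, Fintype.card_fin, pow_one, mul_one] at h3
  refine mul_left_cancel₀ (left_ne_zero_of_mul_eq_one h4) ?_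
  rw [h4, ← h3]
  ring

end AdjH

open AdjH in
/-- **ADJH** -/
theorem stAdjH : StAdjH := fun n V Z A s i hA hs hI hi => by
  have z0 : ∀ a y, i y ∈ A.U a → s a (i y) = 0 := fun a y ha => by
    have h : i y ∈ {x | ¬ NZ A s x} := hi.rng ▸ mem_range_self y
    by_contra k
    exact h fun b hb h0 => k (by rw [hs.change a b _ ha hb, h0, mul_zero])
  have fa : ∀ a y, i y ∈ A.U a → FibA (n + 1) 1 n (vec (s a)) i y := fun a y ha =>
    ⟨holA_vec (sec_hol hs ha), hi.hol.at y, sbm_vec (hI a _ ha (z0 a y ha)), hi.imm y,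
      (hi.hol.cont.continuousAt.eventually ((hA.isOpen a).mem_nhds ha)).mono fun z hz =>
        funext fun _ => (z0 a z hz).trans (z0 a y ha).symm⟩
  refine ⟨fun c b => th (sig (Nat.add_comm n 1)) (vec (s b.2)) i r1 c b.1,
    fun _ b y hc hb => (fa _ y hb.2).hol _ hc hb.1 (at_r1 _),
    fun _ b y hc hb => (fa _ y hb.2).ne _ hc hb.1 (at_r1 _), fun c c₁ b b₁ y hc hc₁ hb hb₁ => ?_⟩
  show th _ _ i r1 c b.1 y * ((jacM b.1 b₁.1 (i y)).det * A.g b.2 b₁.2 (i y)) =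
    (jacM c c₁ y).det * th _ _ i r1 c₁ b₁.1 y
  rw [← mul_assoc, (fa _ y hb.2).chgX _ hc hb.1 hb₁.1 (at_r1 _),
    chgA _ (fa _ y hb.2) (fa _ y hb₁.2) (lb_hol hA hb.2 hb₁.2) (sec_hol hs hb₁.2) (z0 _ y hb₁.2)
      (mem_of_superset (((hA.isOpen _).inter (hA.isOpen _)).mem_nhds ⟨hb.2, hb₁.2⟩)
        fun z hz => hs.change _ _ z hz.1 hz.2) hc hb₁.1,
    (fa _ y hb₁.2).chgF _ hc hc₁ hb₁.1 (at_r1 _)]

end Vale.Agent.P281Z.Lg
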