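import Vale.Agent.P281Z.Lg.Mk

/-!
# P281Z, block LG: adapted charts
-/

open scoped Manifold ContDiff Topology
open Filter Set Function
open Vale.Agent.P272.K Vale.Agent.P285.H281.FD
open Vale.Agent.P277Z (Hol at_chart hol_const)
open Vale.Agent.P277Z.Slc (Ind LEq Snc dd dd_congr dd_mul ind_iff_surj)

noncomputable section

namespace Vale.Agent.P281Z

/-- the coordinates of a holomorphic chart are independent -/
theorem Co.ind {n : ℕ} {X : Type} [TopologicalSpace X] [ChartedSpace (Cm n) X] {c : Chart n X}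
    (h : Co n c) {x : X} (hx : x ∈ c.source) : Ind n (fun a y => c y a) x := by
  refine ⟨(h.an x hx).hol, fun e he => (ind_iff_surj _).2 fun v => ?_⟩
  have he' : At e (c.symm (c x)) := (c.left_inv hx).symm ▸ he
  have h1 := (h.an _ (c.map_target (c.map_source hx)) e he').differentiableAt.hasFDerivAt.comp
    (c x) (h.inv _ (c.map_source hx) e he').differentiableAt.hasFDerivAt
  have h2 := h1.unique ((hasFDerivAt_id (c x)).congr_of_eventuallyEq (by
    filter_upwards [c.open_target.mem_nhds (c.map_source hx),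
      (c.continuousAt_symm (c.map_source hx)).eventually (at_near he')] with u k1 k2
    rw [comp_apply, k2.left_inv, c.right_inv k1, id]))
  rw [c.left_inv hx] at h2
  exact ⟨_, (DFunLike.congr_fun (fderiv_pi fun a =>
    ((h.an x hx).hol a e he).differentiableAt).symm _).trans (DFunLike.congr_fun h2 v)⟩

namespace Lg

variable {n : ℕ} {V : Mf n} {κ : Type} {D : κ → Set V.X} {F : Bd V.X} {x : V.X}

/-- transversality can be checked with one system of local equations -/
theorem trv_of_one {α : Type} {h : α → V.X → ℂ} {ξ : κ → V.X → ℂ} (h1 : ∀ l, LEq n (D l) x (ξ l))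
    (h2 : Ind n (Sum.elim (fun l : {l // x ∈ D l} => ξ l) h) x) : Trv D h x := by
  intro ζ hζ
  choose u a1 a2 a3 using fun l => leq_unit (h1 l) (hζ l)
  refine ⟨Sum.rec (fun l => (hζ l).hol) fun a => h2.1 (.inr a), fun e he => ?_⟩
  have k := (h2.2 e he).units_smul (Sum.elim (fun l => Units.mk0 _ (a2 l)) fun _ => 1)
  refine (congrArg (LinearIndependent ℂ ·) (funext (Sum.rec (fun l => ?_) fun a => ?_))).mp k
  · exact ((dd_congr (a3 l) he).trans (dd_mul (a1 l) (h1 l).hol ((h1 l).mem.2 l.2) he)).symm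
  · exact one_smul ℂˣ (dd (h a) e x)

theorem trv_empty (hD : Snc n D) : Trv D (Empty.elim : Empty → V.X → ℂ) x := by
  obtain ⟨ξ, h1, h2⟩ := hD x
  refine trv_of_one h1 ((congrArg (Ind n · x) (funext (Sum.rec (fun _ => rfl) (·.elim)))).mp
    (h2.comp (Sum.elim id Empty.elim) ?_))
  rintro (a | a) (b | b) k
  exacts [congrArg _ k, b.elim, a.elim, a.elim]

theorem Trv.ind {α : Type} {h : α → V.X → ℂ} (ht : Trv D h x) (hD : Snc n D) : Ind n h x :=
  let ⟨ξ, h1, _⟩ := hD x
  (ht ξ h1).comp Sum.inr Sum.inr_injective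

theorem Ac.hol (c : Ac V D F) (hx : x ∈ c.ch.source) (o : Option (Fin n)) :
    Hol n (fun y => zt o (c.ch y)) x := by
  cases o with
  | none => exact hol_const 1 x
  | some k => exact (c.co.an x hx).hol k

theorem Ac.zt_eq (c : Ac V D F) (hx : x ∈ c.ch.source) (l : κ) :
    zt (c.la l) (c.ch x) = 0 ↔ x ∈ D l := by
  rw [c.eqn l x hx]
  cases c.la l <;> simp [zt]

theorem Ac.leq (c : Ac V D F) (hx : x ∈ c.ch.source) (l : κ) :
    LEq n (D l) x fun y => zt (c.la l) (c.ch y) := by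
  refine ⟨(c.ch.open_source.eventually_mem hx).mono fun y hy => c.zt_eq hy l, fun e he =>
    ⟨c.hol hx _ e he, ?_⟩⟩
  cases c.la l with
  | none => exact fun k => (one_ne_zero k).elim
  | some k => exact fun _ => ((c.co.ind hx).2 e he).ne_zero k

theorem Ac.dense (c : Ac V D F) (hx : x ∈ c.ch.source) : ∃ᶠ y in 𝓝 x, y ∈ off D := by
  have h1 : Dense (univ.pi fun _ : Fin n => ({0}ᶜ : Set ℂ)) :=
    dense_pi _ fun _ _ => dense_compl_singleton 0
  refine (c.ch.tendsto_symm hx).frequently (((mem_closure_iff_frequently.1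
    (h1 (c.ch x))).and_eventually (c.ch.open_target.eventually_mem (c.ch.map_source hx))).mono
      fun z hz l hl => ?_)
  obtain ⟨k, -, h⟩ := (c.eqn l _ (c.ch.map_target hz.2)).1 hl
  exact hz.1 k trivial ((congrFun (c.ch.right_inv hz.2) k).symm.trans h)

theorem Ac.zp_ne [Fintype κ] (c : Ac V D F) (hx : x ∈ c.ch.source) : c.zp x ≠ 0 ↔ x ∈ off D :=
  Finset.prod_ne_zero_iff.trans ⟨fun k l => mt (c.zt_eq hx l).2 (k l (Finset.mem_univ l)),
    fun k l _ => mt (c.zt_eq hx l).1 (k l)⟩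

theorem Ac.zp_hol [Fintype κ] (c : Ac V D F) (hx : x ∈ c.ch.source) : Hol n c.zp x :=
  Hol.prod _ fun _ _ => c.hol hx _

/-- coordinates which are not equations of the divisor are transversal to the strata -/
theorem Ac.trv (c : Ac V D F) (hx : x ∈ c.ch.source) {α : Type} {j : α → Fin n} (hj : Injective j)
    (hl : ∀ a l, c.la l ≠ some (j a)) : Trv D (fun a y => c.ch y (j a)) x := by
  choose k k1 k2 using fun l : {l // x ∈ D l} => (c.eqn l x hx).1 l.2
  refine trv_of_one (c.leq hx) ((congrArg (Ind n · x) (funext (Sum.rec (fun l => ?_)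
    fun _ => rfl))).mp ((c.co.ind hx).comp (Sum.elim k j) (Injective.sumElim (fun l l' e =>
      Subtype.ext (c.inj _ _ _ (k1 l) (e ▸ k1 l'))) hj fun l a e => hl a l (e ▸ k1 l))))
  simp only [Sum.elim_inl, k1 l]
  rfl

theorem snc_of_ac {B : Type} (ac : B → Ac V D F) (h : ∀ x, ∃ β, x ∈ (ac β).ch.source) :
    Snc n D := fun x =>
  let ⟨β, hβ⟩ := h x
  ⟨_, (ac β).leq hβ, ((ac β).trv hβ (j := Empty.elim) (·.elim) (·.elim) _ ((ac β).leq hβ)).comp
    Sum.inl Sum.inl_injective⟩

/-- **AA** -/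
theorem stAa : StAa := by
  classical
  intro n V κ _ D F hF hD x α h ht W hW
  obtain ⟨ζ, h1, -⟩ := hD x
  obtain ⟨a, ha⟩ := hF.cover x
  have hU : ∀ᶠ y in 𝓝 x, y ∈ W ∧ y ∈ F.U a ∧ ∀ l, (ζ l y = 0 ↔ y ∈ D l) ∧ (x ∉ D l → y ∉ D l) :=
    Eventually.and hW ((lb_near hF ha).and (eventually_all.2 fun l =>
      (h1 l).1.and (eventually_imp_distrib_left.2 (h1 l).not_mem_near)))
  obtain ⟨c, j, k1, k2, k3, k4, k5⟩ := exists_chart (ht ζ h1) hU
  refine ⟨⟨c, a, fun l => if hl : x ∈ D l then some (j (.inl ⟨l, hl⟩)) else none, x, k1,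
    fun y hy => (k3 hy).2.1, fun l l' k e e' => ?_, fun l y hy => ?_, k2, fun l k e => ?_⟩,
    fun a => j (.inr a), rfl, fun y hy => (k3 hy).1, k4.comp Sum.inr_injective, fun a l e => ?_,
    fun y hy a => k5 y hy (.inr a)⟩
  · split_ifs at e e'
    exact congrArg Subtype.val (Sum.inl_injective (k4 (Option.some.inj (e.trans e'.symm))))
  · by_cases hl : x ∈ D l
    · rw [dif_pos hl, ← ((k3 hy).2.2 l).1]
      have k : c y _ = ζ l y := k5 y hy (.inl ⟨l, hl⟩)
      exact ⟨fun e => ⟨_, rfl, k.trans e⟩, fun ⟨_, e, e'⟩ => k.symm.trans (Option.some.inj e ▸ e')⟩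
    · rw [dif_neg hl]
      exact iff_of_false (((k3 hy).2.2 l).2 hl) fun ⟨_, e, _⟩ => by simp at e
  · split_ifs at e with hl
    exact Option.some.inj e ▸ (k5 x k2 (.inl ⟨l, hl⟩)).trans ((h1 l).mem.2 hl)
  · dsimp only at e
    split_ifs at e
    exact Sum.inl_ne_inr (k4 (Option.some.inj e))

end Lg

end Vale.Agent.P281Z
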