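import Vale.Agent.P281Z.La.Hess

/-!
# P281Z, block LG: the hypersurface `s = 0` and the strata
-/

open scoped Manifold ContDiff Topology ComplexOrder
open Filter Set
open Vale.Agent.P272.K Vale.Agent.P285.H281.FD Vale.Agent.P281Z.Ha Vale.Agent.P284.H608.K
open Vale.Agent.P277Z (Hol at_chart)

noncomputable section

namespace Vale.Agent.P281Z.Lg

variable {n : ℕ} {V : Mf n} {κ : Type} [Fintype κ] [LinearOrder κ] {D : κ → Set V.X} {F : Bd V.X}
  {ψ : F.ι → V.X → ℝ} {L : Lad κ V.X n} {ac : L.B → Ac V D F}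

theorem Lad.at (L : Lad κ V.X n) {m : ℕ} {c : (L.K m).I} {y : (L.Y m).X}
    (hy : y ∈ ((L.K m).e c).source) : At ((L.K m).e c) y := ⟨(L.atl m _).2 ⟨c, rfl⟩, hy⟩

namespace Mk

variable (M : Mk L ac ψ) {m : ℕ} {c : (L.K m).I}
include M

theorem pt_mem {y : (L.Y m).X} (hy : y ∈ ((L.K m).e c).source) :
    L.pt y ∈ (ac (L.bs c)).ch.source := ((M.src m c y).1 hy).2

/-- holomorphic functions on the strata -/
theorem an {a : V.X → ℂ} {z : Cm m} (hz : z ∈ ((L.K m).e c).target)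
    (ha : Hol n a (L.pt (((L.K m).e c).symm z))) :
    AnalyticAt ℂ (fun z => a (L.pt (((L.K m).e c).symm z))) z := by
  simpa only [((L.K m).e c).right_inv hz] using
    (M.pt_hol m).hol ha _ (L.at (((L.K m).e c).map_target hz))

/-- smooth functions on the strata -/
theorem sm {f : V.X → ℝ} {z : Cm m} (hz : z ∈ ((L.K m).e c).target)
    (hf : ∀ e : Chart n V.X, At e (L.pt (((L.K m).e c).symm z)) →
      ContDiffAt ℝ ∞ (fun z => f (e.symm z)) (e (L.pt (((L.K m).e c).symm z)))) :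
    ContDiffAt ℝ ∞ (fun z => f (L.pt (((L.K m).e c).symm z))) z := by
  simpa only [((L.K m).e c).right_inv hz] using sm_pull ((M.pt_hol m).at _)
    (L.at (((L.K m).e c).map_target hz)) (at_chart _) (hf _ (at_chart _))

/-- the metric is smooth -/
theorem smooth {β : L.B} {x : V.X} (hx : x ∈ (ac β).ch.source) (e : Chart n V.X) (he : At e x) :
    ContDiffAt ℝ ∞ (fun z => ψ (ac β).fr (e.symm z)) (e x) := by
  obtain ⟨y, rfl, h2⟩ := M.surj n ∅ (zero_add n) x fun _ h => (Finset.notMem_empty _ h).elim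
  obtain ⟨c, rfl, h3, h4⟩ := (M.ex n β y (M.U_eq β ▸ hx)).2 id Function.injective_id fun _ _ h =>
    (Finset.notMem_empty _ (h2 ▸ h)).elim
  have h5 : ∀ y ∈ ((L.K n).e c).source, (ac (L.bs c)).ch (L.pt y) = (L.K n).e c y := fun y hy => by
    rw [M.crd n c y hy, h4, Function.extend_id]
  have h6 := ((ac (L.bs c)).co.an _ hx e he).contDiffAt (n := ∞) |>.restrict_scalars ℝ
  refine (ContDiffAt.comp (e (L.pt y)) (g := (L.K n).φ c) (by
    rw [he.left_inv, h5 y h3]
    exact (L.K n).φsm c _ (((L.K n).e c).map_source h3)) h6).congr_of_eventuallyEq ?_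
  filter_upwards [at_ev he ((ac (L.bs c)).ch.open_source.eventually_mem hx)] with z hz
  have k1 : (ac (L.bs c)).ch (e.symm z) ∈ ((L.K n).e c).target := by
    rw [M.tg, h4, Function.extend_id]
    exact (ac (L.bs c)).ch.map_source hz
  have k2 := ((L.K n).e c).map_target k1
  have k3 := M.φ_eq n c _ k2
  rw [(ac (L.bs c)).ch.injOn (M.pt_mem k2) hz ((h5 _ k2).trans (((L.K n).e c).right_inv k1)),
    ((L.K n).e c).right_inv k1] at k3
  exact k3.symm

variable {A : Bd V.X} {τ : A.ι → V.X → ℝ} {s : A.ι → V.X → ℂ} {fa : L.B → A.ι}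
  (h : ∀ β, (ac β).ch.source ⊆ A.U (fa β)) (hA : IsLB n A) (hτ : IsMet n A τ) (hs : IsSec n A s)

/-- the second bundle on the strata -/
@[reducible] def twi (m : ℕ) : Twi (L.K m) where
  γ c c' z := A.g (fa (L.bs c)) (fa (L.bs c')) (L.pt (((L.K m).e c).symm z))
  τ c z := τ (fa (L.bs c)) (L.pt (((L.K m).e c).symm z))
  σ c z := s (fa (L.bs c)) (L.pt (((L.K m).e c).symm z))
  τsm c _ hz := M.sm hz fun e he =>
    hτ.smooth _ e _ he (h _ (M.pt_mem (((L.K m).e c).map_target hz)))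
  γhol c _ _ hz hz' :=
    M.an hz (lb_hol hA (h _ (M.pt_mem (((L.K m).e c).map_target hz))) (h _ (M.pt_mem hz')))
  coc c c' c'' y k k' k'' := by
    rw [((L.K m).e c).left_inv k, ((L.K m).e c').left_inv k',
      hA.cocycle _ _ _ _ (h _ (M.pt_mem k)) (h _ (M.pt_mem k')) (h _ (M.pt_mem k''))]
  self c y k := by rw [((L.K m).e c).left_inv k, lb_self hA (h _ (M.pt_mem k))]
  τch c c' y k k' := by
    rw [((L.K m).e c).left_inv k, ((L.K m).e c').left_inv k',
      hτ.change _ _ _ (h _ (M.pt_mem k)) (h _ (M.pt_mem k')), neg_add, Real.exp_add, mul_assoc,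
      Real.exp_neg (Real.log _), Real.exp_log (pow_pos (norm_pos_iff.2 (hA.ne_zero _ _ _
        (h _ (M.pt_mem k)) (h _ (M.pt_mem k')))) 2), inv_mul_cancel₀ (pow_ne_zero 2
        (norm_ne_zero_iff.2 (hA.ne_zero _ _ _ (h _ (M.pt_mem k)) (h _ (M.pt_mem k'))))), mul_one]
  σhol c _ hz := M.an hz (sec_hol hs (h _ (M.pt_mem (((L.K m).e c).map_target hz))))
  σch c c' y k k' := by
    rw [((L.K m).e c).left_inv k, ((L.K m).e c').left_inv k']
    exact hs.change _ _ _ (h _ (M.pt_mem k)) (h _ (M.pt_mem k'))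

theorem dom (hd : Dm ψ τ) (m : ℕ) : (M.twi h hA hτ hs m).Dom := by
  obtain ⟨C, hC⟩ := hd
  refine ⟨C, fun c z hz => ?_⟩
  have hy := ((L.K m).e c).map_target hz
  have hx := M.pt_mem hy
  have k := psd_pb (P299.H956.jmR (fun w => chartAt (Cm n) (L.pt (((L.K m).e c).symm z))
    (L.pt (((L.K m).e c).symm w))) ((L.K m).e c (((L.K m).e c).symm z)))
    (hC _ _ _ _ (at_chart _) ((ac _).sub hx) (h _ hx))
  rwa [Matrix.mul_sub, Matrix.sub_mul, Matrix.mul_smul, Matrix.smul_mul,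
    ← hess_pull ((M.pt_hol m).at _) (L.at hy) (at_chart _) (M.smooth hx _ (at_chart _))
      (M.φ_eq m c),
    ← hess_pull ((M.pt_hol m).at _) (L.at hy) (at_chart _) (hτ.smooth _ _ _ (at_chart _) (h _ hx))
      (φ := (M.twi h hA hτ hs m).τ c) fun y k => by
        simp only [((L.K m).e c).left_inv k],
    ((L.K m).e c).right_inv hz] at k

variable {hc : L.B → Option (Fin n)}
  (h1 : ∀ β k, hc β = some k → (∀ l, (ac β).la l ≠ some k) ∧
    ∀ x ∈ (ac β).ch.source, s (fa β) x = (ac β).ch x k)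
  (h2 : ∀ β, hc β = none → ∀ x ∈ (ac β).ch.source, s (fa β) x ≠ 0)

open Classical in
/-- the hypersurface -/
@[reducible] def hy : L.Hy where
  T := M.twi h hA hτ hs
  γ β β' := A.g (fa β) (fa β')
  s β := s (fa β)
  hc c := if k : ∃ k, hc (L.bs c) = some (M.jx c k) then some k.choose else none
  self β _ k := lb_self hA (h β (M.U_eq β ▸ k))
  coc β β' β'' _ k k' k'' := (hA.cocycle _ _ _ _ (h β (M.U_eq β ▸ k)) (h β' (M.U_eq β' ▸ k'))
    (h β'' (M.U_eq β'' ▸ k''))).symm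
  chg β β' _ k k' := hs.change _ _ _ (h β (M.U_eq β ▸ k)) (h β' (M.U_eq β' ▸ k'))
  hol _ _ β β' _ hz k k' := M.an hz (lb_hol hA (h β (M.U_eq β ▸ k)) (h β' (M.U_eq β' ▸ k')))
  γ_eq m c _ _ k _ := congrArg (fun y => A.g _ _ (L.pt y)) (((L.K m).e c).left_inv k)
  σ_eq m c _ k := congrArg (fun y => s _ (L.pt y)) (((L.K m).e c).left_inv k)
  on m c k e := by
    split_ifs at e with k0
    obtain ⟨k1, k2⟩ := h1 _ _ (Option.some.inj e ▸ k0.choose_spec : _ = some (M.jx c k))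
    refine ⟨fun l e' => k1 l ((M.co_eq m c l k).1 e'), fun z hz => ?_⟩
    have hy := ((L.K m).e c).map_target hz
    refine (k2 _ (M.pt_mem hy)).trans ?_
    rw [M.crd m c _ hy, (M.jx_inj m c).extend_apply, ((L.K m).e c).right_inv hz]
  out m c e z hz := by
    split_ifs at e with k0
    cases k1 : hc (L.bs c) with
    | none => exact h2 _ k1 _ (M.pt_mem (((L.K m).e c).map_target hz))
    | some k =>
      obtain ⟨k', rfl⟩ := (M.jx_rng m c k).2 fun l _ => (h1 _ _ k1).1 l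
      exact (k0 ⟨k', k1⟩).elim
  sl_τ m c i k e v hv := by
    have hy := ((L.K m).e _).map_target hv
    obtain ⟨hi, k1⟩ := (L.sl_src m c i k e _).1 hy
    have k2 := L.sl_e m c i k e _ hy hi
    rw [((L.K m).e _).right_inv hv] at k2
    change τ _ _ = τ _ _
    rw [← k2, ((L.K (m + 1)).e c).left_inv k1, L.up_pt, L.sl_bs]

/-- the strata, with the twisted bundle -/
def tw : Mk (M.hy h hA hτ hs h1 h2).lad (fun β => (ac β).tw (fa β) (h β))
    fun a x => ψ a.1 x + τ a.2 x :=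
  have hφ : ∀ m (c : (L.K m).I), ∀ y ∈ ((L.K m).e c).source,
      (M.twi h hA hτ hs m).ka.φ c ((L.K m).e c y) =
        ψ (ac (L.bs c)).fr (L.pt y) + τ (fa (L.bs c)) (L.pt y) := fun m c y hy => by
    change (L.K m).φ _ _ + τ _ _ = _
    rw [M.φ_eq m c y hy, ((L.K m).e c).left_inv hy]
  { M with
    G_eq := fun β β' x k k' => by
      have := M.G_eq β β' x k k'
      change L.G β β' x * A.g _ _ x * (ac β').zp x = _ * (F.g _ _ x * A.g _ _ x) * (ac β).zp x
      linear_combination A.g (fa β) (fa β') x * this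
    G_hol := fun β β' x k k' =>
      (M.G_hol β β' x k k').mul (lb_hol hA (h β (M.U_eq β ▸ k)) (h β' (M.U_eq β' ▸ k')))
    a_eq := fun m c c' y k k' => by
      change (L.K m).a _ _ _ * A.g _ _ _ = F.g _ _ _ * A.g _ _ _
      rw [M.a_eq m c c' y k k', ((L.K m).e c).left_inv k]
    φ_eq := hφ
    psd := fun k m => psd_of' (F := F.mul A) (K := (M.twi h hA hτ hs m).ka)
      (fr := fun c => ((ac (L.bs c)).fr, fa (L.bs c))) (fun c => (L.atl m _).2 ⟨c, rfl⟩)
      (M.pt_hol m) (fun _ _ hy => ⟨(ac _).sub (M.pt_mem hy), h _ (M.pt_mem hy)⟩) (hφ m)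
      (fun _ _ hy e he => (M.smooth (M.pt_mem hy) e he).add
        (hτ.smooth _ e _ he (h _ (M.pt_mem hy)))) k }

end Mk

/-- **HYP** -/
theorem stHyp : StHyp := fun _ _ _ _ _ _ _ _ _ _ _ M _ _ _ _ h _ hA hτ hs h1 h2 =>
  ⟨M.hy h hA hτ hs h1 h2, fun _ _ => rfl, fun _ => rfl, M.dom h hA hτ hs,
    ⟨M.tw h hA hτ hs h1 h2⟩⟩

end Vale.Agent.P281Z.Lg
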