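import Vale.Agent.P281Z.Mf.Adj
import Vale.Agent.P281Z.Mf.Loc

/-!
# P281Z, block LG: Jacobians of holomorphic charts
-/

open scoped Manifold ContDiff Topology
open Filter Set Function
open Vale.Agent.P272.K Vale.Agent.P285.H281.FD
open Vale.Agent.P277Z (Hol at_chart)

noncomputable section

namespace Vale.Agent.P281Z.Co

variable {n : ℕ} {X : Type} [TopologicalSpace X] [ChartedSpace (Cm n) X]
  [IsManifold 𝓘(ℂ, Cm n) ω X] {a b c : Chart n X} {x : X}

theorem tr_an (ha : Co n a) (hb : Co n b) (h1 : x ∈ a.source) (h2 : x ∈ b.source) :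
    AnalyticAt ℂ (fun z => b (a.symm z)) (a x) := AnalyticAt.pi fun i =>
  ha.an_hol (a := fun y => b y i) (a.map_source h1) (by rw [a.left_inv h1]; exact (hb.an x h2).hol i)

theorem jac_eq (ha : Co n a) (hb : Co n b) (h1 : x ∈ a.source) (h2 : x ∈ b.source) :
    jacM a b x = LinearMap.toMatrix' (fderiv ℂ (fun z => b (a.symm z)) (a x) : Cm n →ₗ[ℂ] Cm n) := by
  ext p i
  rw [jacM_eq, jmat_apply (ha.tr_an hb h1 h2).differentiableAt]
  simp

theorem jac_self (ha : Co n a) (hx : x ∈ a.source) : jacM a a x = 1 := by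
  rw [ha.jac_eq ha hx hx, EventuallyEq.fderiv_eq (f := id) (a.eventually_right_inverse' hx),
    fderiv_id]
  exact LinearMap.toMatrix'_id

theorem jac_mul (ha : Co n a) (hb : Co n b) (hc : Co n c) (h1 : x ∈ a.source) (h2 : x ∈ b.source)
    (h3 : x ∈ c.source) : jacM a c x = jacM b c x * jacM a b x := by
  have k : DifferentiableAt ℂ (fun z => c (b.symm z)) (b (a.symm (a x))) := by
    rw [a.left_inv h1]
    exact (hb.tr_an hc h2 h3).differentiableAt
  have e : (fun z => c (a.symm z)) =ᶠ[𝓝 (a x)] (fun z => c (b.symm z)) ∘ fun z => b (a.symm z) := by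
    filter_upwards [(a.continuousAt_symm (a.map_source h1)).eventually
      (b.open_source.mem_nhds (by rwa [a.left_inv h1]))] with z hz
    simp only [comp_apply, b.left_inv hz]
  rw [ha.jac_eq hc h1 h3, ha.jac_eq hb h1 h2, hb.jac_eq hc h2 h3, e.fderiv_eq,
    fderiv_comp (f := fun z => b (a.symm z)) (a x) k (ha.tr_an hb h1 h2).differentiableAt,
    a.left_inv h1, ← LinearMap.toMatrix'_comp]
  rfl

theorem jd_self (ha : Co n a) (hx : x ∈ a.source) : (jacM a a x).det = 1 := by
  rw [ha.jac_self hx, Matrix.det_one]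

theorem jd_mul (ha : Co n a) (hb : Co n b) (hc : Co n c) (h1 : x ∈ a.source) (h2 : x ∈ b.source)
    (h3 : x ∈ c.source) : (jacM a c x).det = (jacM a b x).det * (jacM b c x).det := by
  rw [ha.jac_mul hb hc h1 h2 h3, Matrix.det_mul, mul_comm]

theorem jd_ne (ha : Co n a) (hb : Co n b) (h1 : x ∈ a.source) (h2 : x ∈ b.source) :
    (jacM a b x).det ≠ 0 :=
  left_ne_zero_of_mul_eq_one ((ha.jd_mul hb ha h1 h2 h1).symm.trans (ha.jd_self h1))

theorem jac_hol (ha : Co n a) (hb : Co n b) (h1 : x ∈ a.source) (h2 : x ∈ b.source) (p i : Fin n) :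
    Hol n (fun y => jacM a b y p i) x := by
  have k := ha.tr_an hb h1 h2
  refine (((ha.an x h1).cmp (G := fun z => fderiv ℂ (fun z => b (a.symm z)) z (Pi.single i 1))
    (((ContinuousLinearMap.apply ℂ (Cm n) (Pi.single i 1 : Cm n)).analyticAt _).fun_comp
      k.fderiv)).hol p).congr ?_
  filter_upwards [(a.continuousAt h1).eventually k.eventually_analyticAt] with y hy
  rw [jacM_eq, jmat_apply hy.differentiableAt]

theorem jd_hol (ha : Co n a) (hb : Co n b) (h1 : x ∈ a.source) (h2 : x ∈ b.source) :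
    Hol n (fun y => (jacM a b y).det) x := hol_det (ha.jac_hol hb h1 h2)

end Vale.Agent.P281Z.Co
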