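import Vale.Agent.P281Z.Lg.Mk

/-!
# P281Z, block LG: sections on the strata of the top dimension
-/

open scoped Manifold ContDiff Topology
open Filter Set Function
open Vale.Agent.P272.K Vale.Agent.P285.H281.FD
open Vale.Agent.P277Z (Hol)

noncomputable section

namespace Vale.Agent.P281Z.Lg.Mk

variable {n : ℕ} {V : Mf n} {κ : Type} [Fintype κ] [LinearOrder κ] {D : κ → Set V.X} {F : Bd V.X}
  {L : Lad κ V.X n} {ac : L.B → Ac V D F} {ψ : F.ι → V.X → ℝ}

theorem sk_top (M : Mk L ac ψ) : L.sk n = univ :=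
  eq_univ_of_forall fun x =>
    let ⟨y, h, _⟩ := M.surj n ∅ (by simp) x fun _ h => absurd h (Finset.notMem_empty _)
    ⟨y, h⟩

/-- the inverse of `pt` in the charts of the top dimension -/
theorem top_inv (M : Mk L ac ψ) (c : (L.K n).I) {x : V.X} (hx : x ∈ (ac (L.bs c)).ch.source) :
    (ac (L.bs c)).ch x ∘ M.jx c ∈ ((L.K n).e c).target ∧
      L.pt (((L.K n).e c).symm ((ac (L.bs c)).ch x ∘ M.jx c)) = x := by
  have h1 : extend (M.jx c) ((ac (L.bs c)).ch x ∘ M.jx c) 0 = (ac (L.bs c)).ch x := funext fun k => by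
    obtain ⟨k, rfl⟩ := Finite.surjective_of_injective (M.jx_inj n c) k
    exact (M.jx_inj n c).extend_apply _ _ k
  have h2 := (M.tg n c _).2 (h1.symm ▸ (ac (L.bs c)).ch.map_source hx)
  have h3 := ((L.K n).e c).map_target h2
  refine ⟨h2, (ac (L.bs c)).ch.injOn ((M.src n c _).1 h3).2 hx ?_⟩
  rw [M.crd n c _ h3, ((L.K n).e c).right_inv h2, h1]

/-- a holomorphic function is analytic in the charts of the strata -/
theorem an_of_hol (M : Mk L ac ψ) {m : ℕ} {c : (L.K m).I} {z : Cm m}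
    (hz : z ∈ ((L.K m).e c).target) {a : V.X → ℂ} (h : Hol n a (L.pt (((L.K m).e c).symm z))) :
    AnalyticAt ℂ (fun z => a (L.pt (((L.K m).e c).symm z))) z := by
  have h1 := (M.pt_hol m).hol h _ ⟨(L.atl m _).2 ⟨c, rfl⟩, ((L.K m).e c).map_target hz⟩
  rwa [((L.K m).e c).right_inv hz] at h1

theorem sec_iff (M : Mk L ac ψ) (b : L.B → V.X → ℂ) :
    L.Sec n b ↔ (∀ β, ∀ x ∈ L.U β, Hol n (b β) x) ∧ L.Chg univ b := by
  refine ⟨fun h => ⟨fun β x hx => ?_, M.sk_top ▸ h.chg⟩, fun h => ⟨fun c z hz =>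
    M.an_of_hol hz (h.1 _ _ (L.mem n c _ (((L.K n).e c).map_target hz))), M.sk_top.symm ▸ h.2⟩⟩
  obtain ⟨y, rfl⟩ : x ∈ L.sk n := M.sk_top.symm ▸ mem_univ x
  obtain ⟨c, rfl, -⟩ := (M.ex n β y hx).1
  rw [M.U_eq] at hx
  have h1 : Hol n (fun x => L.nm n b c ((ac (L.bs c)).ch x ∘ M.jx c)) (L.pt y) :=
    ((ac (L.bs c)).co.an _ hx).cmp (G := fun w => L.nm n b c (w ∘ M.jx c))
      ((h.hol c _ (M.top_inv c hx).1).fun_comp (f := fun w : Cm n => w ∘ M.jx c)
        (AnalyticAt.pi fun k =>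
          (ContinuousLinearMap.proj (R := ℂ) (φ := fun _ : Fin n => ℂ) (M.jx c k)).analyticAt _))
  refine h1.congr ?_
  filter_upwards [(ac (L.bs c)).ch.open_source.mem_nhds hx] with x hx'
  rw [Lad.nm, (M.top_inv c hx').2]

end Vale.Agent.P281Z.Lg.Mk
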