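import Vale.Agent.P281Z.La.Aa
import Vale.Agent.P281Z.La.Jac
import Vale.Agent.P281Z.La.TrvC
import Vale.Agent.P281Z.Sc.Riem

/-!
# P281Z, block LG: logarithmic sections and their numerators
-/

open scoped Manifold ContDiff Topology
open Filter Set Function
open Vale.Agent.P272.K Vale.Agent.P285.H281.FD
open Vale.Agent.P277Z (Hol at_chart)
open Vale.Agent.P277Z.Slc.Dv (ext ext_eq)
open Vale.Agent.P277.HD (pull)

noncomputable section

namespace Vale.Agent.P281Z.Lg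

variable {n d : ℕ} {V : Mf n} {κ : Type} {D : κ → Set V.X} {F : Bd V.X} {x : V.X}
  {e e' : Chart n V.X} {a a' : F.ι} (c : Ac V D F)

/-- the change from the frame of an adapted chart to the frame `(e, a)` -/
def Ac.un (e : Chart n V.X) (a : F.ι) (x : V.X) : ℂ := (jacM c.ch e x).det * F.g c.fr a x

theorem Ac.un_hol (hF : IsLB n F) (hx : x ∈ c.ch.source) (he : At e x) (ha : x ∈ F.U a) :
    Hol n (c.un e a) x := (c.co.jd_hol (co_chart he.1) hx he.2).mul (lb_hol hF (c.sub hx) ha)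

theorem Ac.un_ne (hF : IsLB n F) (hx : x ∈ c.ch.source) (he : At e x) (ha : x ∈ F.U a) :
    c.un e a x ≠ 0 :=
  mul_ne_zero (c.co.jd_ne (co_chart he.1) hx he.2) (hF.ne_zero _ _ _ (c.sub hx) ha)

theorem Ac.un_chg (hF : IsLB n F) (hx : x ∈ c.ch.source) (he : At e x) (ha : x ∈ F.U a)
    (he' : At e' x) (ha' : x ∈ F.U a') :
    c.un e' a' x = c.un e a x * ((jacM e e' x).det * F.g a a' x) := by
  rw [un, un, c.co.jd_mul (co_chart he.1) (co_chart he'.1) hx he.2 he'.2,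
    ← hF.cocycle _ _ _ _ (c.sub hx) ha ha', mul_mul_mul_comm]

theorem Ac.un_tr (c' : Ac V D F) (hF : IsLB n F) (hx : x ∈ c.ch.source) (hx' : x ∈ c'.ch.source)
    (he : At e x) (ha : x ∈ F.U a) :
    c.un e a x = (jacM c.ch c'.ch x).det * F.g c.fr c'.fr x * c'.un e a x := by
  rw [un, un, c.co.jd_mul c'.co (co_chart he.1) hx hx' he.2,
    ← hF.cocycle _ _ _ _ (c.sub hx) (c'.sub hx') ha, mul_mul_mul_comm]

variable [Fintype κ]

theorem Ac.norm_zp (x : V.X) : ∏ l, ‖zt (c.la l) (c.ch x)‖ ^ (1 : ℝ) = ‖c.zp x‖ := by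
  simp only [Real.rpow_one, Ac.zp, norm_prod]

variable {B : Type} {ac : B → Ac V D F} {Z : Mf d} {i : Z.X → V.X} {O : Set Z.X}

theorem trv_a (hF : IsLB n F) (hi : HolM d n i) (hD : Dense (i ⁻¹' off D)) (hO : IsOpen O) {s}
    (h : SecP d n i O (pull i ((Bd.can n V.X).mul F)) D (fun _ => 1) s) :
    ∃ b, (∀ β, ∀ y ∈ O, i y ∈ (ac β).ch.source → Hol d (b β) y) ∧ Nm ac i O b s := by
  let f : B → Chart n V.X → F.ι → Z.X → ℂ := fun β e a y =>
    (ac β).zp (i y) * (ac β).un e a (i y) * s (e, a) y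
  let b₀ : B → Z.X → ℂ := fun β y => f β (chartAt (Cm n) (i y)) (ac β).fr y
  have h1 : ∀ β e a, ∀ y ∈ O, i y ∈ off D → i y ∈ (ac β).ch.source → At e (i y) → i y ∈ F.U a →
      b₀ β y = f β e a y := fun β e a y k1 k2 k3 k4 k5 => by
    have := h.chg (chartAt (Cm n) (i y), (ac β).fr) (e, a) y k1 ⟨at_chart _, (ac β).sub k3⟩
      ⟨k4, k5⟩ k2
    simp only [b₀, f, this, (ac β).un_chg hF k3 (at_chart _) ((ac β).sub k3) k4 k5, mul_assoc]
    exact congrArg _ (congrArg _ (mul_assoc _ _ _))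
  have h2 : ∀ β, ∀ y ∈ O, i y ∈ (ac β).ch.source → Hol d (ext (i ⁻¹' off D) (b₀ β)) y ∧
      (i y ∈ off D → ext (i ⁻¹' off D) (b₀ β) y = b₀ β y) := fun β y k1 k2 => by
    have he := at_chart (n := n) (i y)
    have k3 : ∀ᶠ z in 𝓝 y, z ∈ O ∧ i z ∈ (ac β).ch.source ∧ At (chartAt (Cm n) (i y)) (i z) :=
      (hO.eventually_mem k1).and ((hi.at y).cont.eventually
        (((ac β).ch.open_source.eventually_mem k2).and (at_near he)))
    obtain ⟨C, k4⟩ := (h.bdP (a := (chartAt (Cm n) (i y), (ac β).fr)) k1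
      ⟨he, (ac β).sub k2⟩).cmul (hi.hol ((ac β).un_hol hF k2 he ((ac β).sub k2))).cont _
      ((ac β).leq k2)
    obtain ⟨u, k5, k6⟩ := riem (f := f β (chartAt (Cm n) (i y)) (ac β).fr) (C := C)
      (hi.hol ((ac β).zp_hol k2)) (fun k => mem_closure_iff_frequently.1 (hD y)
        ((k3.and k).mono fun z m m' => ((ac β).zp_ne m.1.2.1).2 m' m.2)) (by
      filter_upwards [k3, k4] with z m1 m2 m3
      have m4 := ((ac β).zp_ne m1.2.1).1 m3
      refine ⟨((hi.hol ((ac β).zp_hol m1.2.1)).mul (hi.hol ((ac β).un_hol hF m1.2.1 m1.2.2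
        ((ac β).sub m1.2.1)))).mul (h.hol (_, _) z m1.1 ⟨m1.2.2, (ac β).sub m1.2.1⟩ m4),
        le_of_eq_of_le ?_ (m2 m4)⟩
      rw [Ac.norm_zp, ← norm_mul, mul_comm, ← mul_assoc])
    have k7 : ∀ᶠ z in 𝓝 y, z ∈ i ⁻¹' off D → b₀ β z = u z := by
      filter_upwards [k3, k6] with z m1 m2 m3
      exact (h1 β _ _ z m1.1 m3 m1.2.1 m1.2.2 ((ac β).sub m1.2.1)).trans
        (m2 (((ac β).zp_ne m1.2.1).2 m3)).symm
    have k8 := ext_eq hD k5 k7
    exact ⟨k5.congr k8, fun m => k8.self_of_nhds.symm.trans (k7.self_of_nhds m).symm⟩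
  exact ⟨fun β => ext (i ⁻¹' off D) (b₀ β), fun β y k1 k2 => (h2 β y k1 k2).1,
    fun β e a y k1 k2 k3 k4 k5 => ((h2 β y k1 k3).2 k2).trans (h1 β e a y k1 k2 k3 k4 k5)⟩

theorem trv_b (hF : IsLB n F) (hc : ∀ x, ∃ β, x ∈ (ac β).ch.source) (hi : HolM d n i)
    (hO : IsOpen O) {b : B → Z.X → ℂ}
    (h1 : ∀ β, ∀ y ∈ O, i y ∈ (ac β).ch.source → Hol d (b β) y)
    (h2 : ∀ β β', ∀ y ∈ O, i y ∈ off D → i y ∈ (ac β).ch.source → i y ∈ (ac β').ch.source →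
      b β y * (ac β').zp (i y) = (jacM (ac β).ch (ac β').ch (i y)).det *
        F.g (ac β).fr (ac β').fr (i y) * (ac β).zp (i y) * b β' y) :
    ∃ s, SecP d n i O (pull i ((Bd.can n V.X).mul F)) D (fun _ => 1) s ∧ Nm ac i O b s := by
  choose β₀ h0 using hc
  let s : Chart n V.X × F.ι → Z.X → ℂ := fun a y =>
    b (β₀ (i y)) y / (ac (β₀ (i y))).un a.1 a.2 (i y) / (ac (β₀ (i y))).zp (i y)
  have h3 : ∀ β e a, ∀ y ∈ O, i y ∈ (ac β).ch.source → At e (i y) → i y ∈ F.U a → i y ∈ off D →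
      s (e, a) y = b β y / (ac β).un e a (i y) / (ac β).zp (i y) := fun β e a y k1 k3 k4 k5 k2 => by
    have m1 := ((ac β).zp_ne k3).2 k2
    have m2 := ((ac _).zp_ne (h0 (i y))).2 k2
    have m3 := (ac β).un_ne hF k3 k4 k5
    have m4 := (ac _).un_ne hF (h0 (i y)) k4 k5
    simp only [s, div_div]
    rw [div_eq_div_iff (mul_ne_zero m4 m2) (mul_ne_zero m3 m1),
      (ac β).un_tr _ hF k3 (h0 (i y)) k4 k5]
    linear_combination -(ac (β₀ (i y))).un e a (i y) * h2 β _ y k1 k2 k3 (h0 (i y))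
  have h4 : ∀ a, ∀ y ∈ O, y ∈ (pull i ((Bd.can n V.X).mul F)).U a →
      Hol d (fun z => b (β₀ (i y)) z / (ac (β₀ (i y))).un a.1 a.2 (i z)) y ∧
      ∀ᶠ z in 𝓝 y, i z ∈ (ac (β₀ (i y))).ch.source ∧ (i z ∈ off D → s a z =
        b (β₀ (i y)) z / (ac (β₀ (i y))).un a.1 a.2 (i z) / (ac (β₀ (i y))).zp (i z)) :=
    fun a y k1 k2 => ⟨(h1 _ y k1 (h0 _)).div (hi.hol ((ac _).un_hol hF (h0 _) k2.1 k2.2))
      ((ac _).un_ne hF (h0 _) k2.1 k2.2), by
        filter_upwards [hO.eventually_mem k1, (hi.at y).cont.eventually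
          (((ac _).ch.open_source.eventually_mem (h0 _)).and ((at_near k2.1).and
            (lb_near hF k2.2)))] with z m1 m2 using ⟨m2.1, h3 _ _ _ z m1 m2.1 m2.2.1 m2.2.2⟩⟩
  refine ⟨s, ⟨fun a y k1 k2 k3 => ?_, fun a a' y k1 k2 k3 k4 => ?_, fun a y k1 k2 => ?_⟩,
    fun β e a y k1 k2 k3 k4 k5 => ?_⟩
  · have m1 := hi.hol ((ac _).zp_hol (h0 (i y)))
    have m2 := ((ac _).zp_ne (h0 (i y))).2 k3
    refine ((h4 a y k1 k2).1.div m1 m2).congr ?_
    filter_upwards [(h4 a y k1 k2).2, m1.ne_near m2] with z m3 m4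
      using (m3.2 (((ac _).zp_ne m3.1).1 m4)).symm
  · have m1 : (jacM a.1 a'.1 (i y)).det * F.g a.2 a'.2 (i y) ≠ 0 := right_ne_zero_of_mul
      (((ac _).un_chg hF (h0 _) k2.1 k2.2 k3.1 k3.2).symm.trans_ne
        ((ac _).un_ne hF (h0 _) k3.1 k3.2))
    change _ = (jacM a.1 a'.1 (i y)).det * F.g a.2 a'.2 (i y) * _
    simp only [s, (ac _).un_chg hF (h0 _) k2.1 k2.2 k3.1 k3.2]
    generalize (jacM a.1 a'.1 (i y)).det * F.g a.2 a'.2 (i y) = t at m1 ⊢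
    field_simp
  · obtain ⟨C, -, m1⟩ := bdd_near (h4 a y k1 k2).1.cont.norm
    refine bdP_of_one (hi.at y).cont ((ac _).leq (h0 _)) (C := C) ?_
    filter_upwards [(h4 a y k1 k2).2, m1] with z m2 m3 m4
    rwa [Ac.norm_zp, ← norm_mul, m2.2 m4, div_mul_cancel₀ _ (((ac _).zp_ne m2.1).2 m4)]
  · have m1 := ((ac β).zp_ne k3).2 k2
    have m2 := (ac β).un_ne hF k3 k4 k5
    change _ = _ * (ac β).un e a (i y) * s (e, a) y
    rw [h3 β e a y k1 k3 k4 k5 k2]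
    field_simp

/-- **TRV** -/
theorem stTrv : StTrv := fun _ _ _ _ _ _ hF _ _ hc =>
  ⟨fun _ _ _ _ hi hD hO => ⟨fun _ => trv_a hF hi hD hO, fun _ => trv_b hF hc hi hO⟩,
    fun _ _ _ M => M.sec_iff⟩

end Vale.Agent.P281Z.Lg
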